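import Mathlib
import Vale.Agent.Lib.P162.Defs

namespace Vale.Agent.Lib.P162.H23

open Finset BigOperators

/-- Sum over functions on `Fin (k + 1)` split along the first coordinate. -/
theorem sum_fin_succ_fun {α : Type*} [Fintype α] [DecidableEq α] (k : ℕ)
    (f : (Fin (k + 1) → α) → ℝ) :
    ∑ y : Fin (k + 1) → α, f y = ∑ q : α, ∑ y' : Fin k → α, f (Fin.cons q y') := by
  rw [← Fintype.sum_prod_type']
  exact (Fintype.sum_equiv (Fin.consEquiv (fun _ : Fin (k + 1) => α)).symm _ _
    (fun y => by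
      simp [Fin.consEquiv])).trans rfl

/-- The total mass of a product of probability vectors is one. -/
theorem sum_prod_eq_one {α : Type*} [Fintype α] [DecidableEq α] (k : ℕ) (a : Fin k → α → ℝ)
    (ha1 : ∀ j, ∑ q, a j q = 1) :
    ∑ y : Fin k → α, ∏ j, a j (y j) = 1 := by
  have h := (Finset.prod_univ_sum (fun _ : Fin k => (Finset.univ : Finset α))
    (fun j q => a j q)).symm
  rw [Fintype.piFinset_univ] at h
  rw [h]
  exact Finset.prod_eq_one (fun j _ => ha1 j)

/-- Hybrid bound: the `l1` distance between two product laws is at most the sum of the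
`l1` distances of the factors. -/
theorem prod_tv {α : Type*} [Fintype α] [DecidableEq α] (k : ℕ) (a : Fin k → α → ℝ) (b : α → ℝ)
    (ha : ∀ j q, 0 ≤ a j q) (ha1 : ∀ j, ∑ q, a j q = 1) (hb : ∀ q, 0 ≤ b q) (hb1 : ∑ q, b q = 1) :
    ∑ y : Fin k → α, |∏ j, a j (y j) - ∏ j, b (y j)| ≤ ∑ j, ∑ q, |a j q - b q| := by
  induction k with
  | zero => simp
  | succ k ih =>
    have ih' := ih (fun j => a j.succ) (fun j q => ha j.succ q) (fun j => ha1 j.succ)
    have hP1 : ∑ y' : Fin k → α, ∏ j, a j.succ (y' j) = 1 :=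
      sum_prod_eq_one k (fun j => a j.succ) (fun j => ha1 j.succ)
    rw [sum_fin_succ_fun, Fin.sum_univ_succ]
    have hterm : ∀ (q : α) (y' : Fin k → α),
        |∏ j, a j ((Fin.cons q y' : Fin (k + 1) → α) j) - ∏ j, b ((Fin.cons q y' : Fin (k + 1) → α) j)|
          ≤ |a 0 q - b q| * ∏ j, a j.succ (y' j)
            + b q * |∏ j, a j.succ (y' j) - ∏ j, b (y' j)| := by
      intro q y'
      rw [Fin.prod_univ_succ, Fin.prod_univ_succ]
      simp only [Fin.cons_zero, Fin.cons_succ]
      have hPnn : 0 ≤ ∏ j, a j.succ (y' j) := Finset.prod_nonneg (fun j _ => ha j.succ (y' j))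
      have heq : a 0 q * ∏ j, a j.succ (y' j) - b q * ∏ j, b (y' j)
          = (a 0 q - b q) * ∏ j, a j.succ (y' j)
            + b q * (∏ j, a j.succ (y' j) - ∏ j, b (y' j)) := by ring
      rw [heq]
      refine (abs_add_le _ _).trans ?_
      rw [abs_mul, abs_mul, abs_of_nonneg hPnn, abs_of_nonneg (hb q)]
    calc ∑ q : α, ∑ y' : Fin k → α,
          |∏ j, a j ((Fin.cons q y' : Fin (k + 1) → α) j)
            - ∏ j, b ((Fin.cons q y' : Fin (k + 1) → α) j)|
        ≤ ∑ q : α, ∑ y' : Fin k → α, (|a 0 q - b q| * ∏ j, a j.succ (y' j)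
            + b q * |∏ j, a j.succ (y' j) - ∏ j, b (y' j)|) :=
          Finset.sum_le_sum (fun q _ => Finset.sum_le_sum (fun y' _ => hterm q y'))
      _ = ∑ q : α, (|a 0 q - b q| * ∑ y' : Fin k → α, ∏ j, a j.succ (y' j)
            + b q * ∑ y' : Fin k → α, |∏ j, a j.succ (y' j) - ∏ j, b (y' j)|) := by
          refine Finset.sum_congr rfl (fun q _ => ?_)
          rw [Finset.sum_add_distrib, ← Finset.mul_sum, ← Finset.mul_sum]
      _ = ∑ q : α, |a 0 q - b q|
            + ∑ y' : Fin k → α, |∏ j, a j.succ (y' j) - ∏ j, b (y' j)| := by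
          rw [Finset.sum_add_distrib, hP1, ← Finset.sum_mul, ← Finset.sum_mul, hb1]
          simp
      _ ≤ ∑ q : α, |a 0 q - b q| + ∑ j : Fin k, ∑ q, |a j.succ q - b q| := by
          linarith [ih']

end Vale.Agent.Lib.P162.H23
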