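import Mathlib
import Vale.Agent.Lib.P162.Defs
import Vale.Agent.Lib.P162.RDefs

/-!
Thorp shuffle, job R3: a new card that shares no coin with the old cards moves independently
of them.
-/

namespace Vale.Agent.Lib.P162.H23

open Finset BigOperators

/-- Counting coin vectors: a condition on the coin `i0` alone and a condition `B` that does not
depend on the coin `i0` are independent. -/
theorem count_split {ι : Type*} [Fintype ι] [DecidableEq ι] (i0 : ι) (g : Bool → Prop)
    [DecidablePred g] (B : (ι → Bool) → Prop) [DecidablePred B]
    (hB : ∀ c b, B (Function.update c i0 b) ↔ B c) :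
    ((univ.filter fun c : ι → Bool => g (c i0) ∧ B c).card : ℝ)
      = ((if g true then (1 : ℝ) else 0) + (if g false then (1 : ℝ) else 0)) / 2
        * ((univ.filter fun c : ι → Bool => B c).card : ℝ) := by
  have hcard : (univ.filter (fun c : ι → Bool => c i0 = true ∧ B c)).card
      = (univ.filter (fun c : ι → Bool => c i0 = false ∧ B c)).card := by
    apply Finset.card_nbij' (fun c => Function.update c i0 false)
      (fun c => Function.update c i0 true)
    · intro c hc
      simp only [coe_filter, mem_univ, true_and, Set.mem_ofPred_eq] at hc ⊢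
      exact ⟨Function.update_self .., (hB c false).2 hc.2⟩
    · intro c hc
      simp only [coe_filter, mem_univ, true_and, Set.mem_ofPred_eq] at hc ⊢
      exact ⟨Function.update_self .., (hB c true).2 hc.2⟩
    · intro c hc
      simp only [coe_filter, mem_univ, true_and, Set.mem_ofPred_eq] at hc
      show Function.update (Function.update c i0 false) i0 true = c
      rw [Function.update_idem, ← hc.1, Function.update_eq_self]
    · intro c hc
      simp only [coe_filter, mem_univ, true_and, Set.mem_ofPred_eq] at hc
      show Function.update (Function.update c i0 true) i0 false = c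
      rw [Function.update_idem, ← hc.1, Function.update_eq_self]
  have hsplit : (univ.filter fun c : ι → Bool => B c).card
      = (univ.filter (fun c : ι → Bool => c i0 = true ∧ B c)).card
        + (univ.filter (fun c : ι → Bool => c i0 = false ∧ B c)).card := by
    rw [← Finset.card_union_of_disjoint]
    · congr 1
      ext c
      simp only [mem_filter, mem_univ, true_and, mem_union]
      cases c i0 <;> simp
    · rw [Finset.disjoint_filter]
      intro c _ h1 h2
      rw [h1.1] at h2
      exact absurd h2.1 (by simp)
  have hsplitR : ((univ.filter fun c : ι → Bool => B c).card : ℝ)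
      = ((univ.filter (fun c : ι → Bool => c i0 = true ∧ B c)).card : ℝ)
        + ((univ.filter (fun c : ι → Bool => c i0 = false ∧ B c)).card : ℝ) := by
    rw [hsplit]; push_cast; ring
  have hcardR : ((univ.filter (fun c : ι → Bool => c i0 = true ∧ B c)).card : ℝ)
      = ((univ.filter (fun c : ι → Bool => c i0 = false ∧ B c)).card : ℝ) := by
    rw [hcard]
  by_cases h1 : g true <;> by_cases h2 : g false
  · have hf : (univ.filter fun c : ι → Bool => g (c i0) ∧ B c)
        = univ.filter fun c : ι → Bool => B c := by
      apply Finset.filter_congr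
      intro c _
      cases hc : c i0 <;> simp [h1, h2]
    rw [hf, if_pos h1, if_pos h2]; ring
  · have hf : (univ.filter fun c : ι → Bool => g (c i0) ∧ B c)
        = univ.filter fun c : ι → Bool => c i0 = true ∧ B c := by
      apply Finset.filter_congr
      intro c _
      cases hc : c i0 <;> simp [h1, h2]
    rw [hf, if_pos h1, if_neg h2, hsplitR, ← hcardR]; ring
  · have hf : (univ.filter fun c : ι → Bool => g (c i0) ∧ B c)
        = univ.filter fun c : ι → Bool => c i0 = false ∧ B c := by
      apply Finset.filter_congr
      intro c _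
      cases hc : c i0 <;> simp [h1, h2]
    rw [hf, if_neg h1, if_pos h2, hsplitR, hcardR]; ring
  · have hf : (univ.filter fun c : ι → Bool => g (c i0) ∧ B c) = ∅ := by
      apply Finset.filter_false_of_mem
      intro c _
      cases hc : c i0 <;> simp [h1, h2]
    rw [hf, if_neg h1, if_neg h2]; simp

/-- The two coin values give the two targets `2 p` and `2 p + 1`, whatever the half bit is. -/
theorem wm_eq {R : Type*} [AddMonoidWithOne R] [Mul R] [DecidableEq R] (p q : R) (a : Bool) :
    ((if 2 * p + (if xor a true then 1 else 0) = q then (1 : ℝ) else 0)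
      + (if 2 * p + (if xor a false then 1 else 0) = q then (1 : ℝ) else 0)) / 2
    = (if q = 2 * p then (1 / 2 : ℝ) else 0) + (if q = 2 * p + 1 then (1 / 2 : ℝ) else 0) := by
  have e1 : (2 * p + 1 = q) ↔ (q = 2 * p + 1) := eq_comm
  have e0 : (2 * p + 0 = q) ↔ (q = 2 * p) := by rw [add_zero]; exact eq_comm
  cases a
  · simp only [Bool.false_xor, if_true, Bool.false_eq_true, if_false, e1, e0]
    split_ifs <;> norm_num
  · simp only [Bool.true_xor, Bool.not_true, Bool.not_false, if_true, Bool.false_eq_true,
      if_false, e1, e0]
    split_ifs <;> norm_num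

/-- Job R3: a new card that shares no coin with the old cards moves independently of them. -/
theorem step_new_free (h j : ℕ) [NeZero h] (z y : Fin (j + 1) → ZMod (2 * h))
    (hz : ¬ newBad h j z) :
    stepProb h (j + 1) z y = Wmat h (z 0) (y 0) * stepProb h j (Fin.tail z) (Fin.tail y) := by
  classical
  have hne : ∀ i : Fin j, (ZMod.cast (z i.succ) : ZMod h) ≠ (ZMod.cast (z 0) : ZMod h) := by
    intro i hi
    exact hz ((newBad_iff h j z).2 ⟨i, hi.symm⟩)
  have hmv : ∀ (c : ZMod h → Bool) (b : Bool) (i : Fin j),
      move h (Function.update c (ZMod.cast (z 0) : ZMod h) b) (z i.succ) = move h c (z i.succ) := by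
    intro c b i
    rw [defs_aux_move, defs_aux_move, Function.update_of_ne (hne i)]
  have hBupd : ∀ (c : ZMod h → Bool) (b : Bool),
      (∀ i : Fin j, move h (Function.update c (ZMod.cast (z 0) : ZMod h) b) (z i.succ)
        = y i.succ) ↔ (∀ i : Fin j, move h c (z i.succ) = y i.succ) := by
    intro c b
    constructor
    · intro hB i; rw [← hmv c b i]; exact hB i
    · intro hB i; rw [hmv c b i]; exact hB i
  have hS : ∀ c : ZMod h → Bool, (∀ i' : Fin (j + 1), move h c (z i') = y i') ↔
      ((2 * z 0 + (if xor (decide (h ≤ (z 0).val)) (c (ZMod.cast (z 0) : ZMod h)) then 1 else 0)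
          = y 0) ∧ (∀ i : Fin j, move h c (z i.succ) = y i.succ)) := by
    intro c
    rw [Fin.forall_fin_succ, defs_aux_move]
  have hfilt : (univ.filter fun c : ZMod h → Bool => ∀ i' : Fin (j + 1), move h c (z i') = y i')
      = univ.filter fun c : ZMod h → Bool =>
        ((2 * z 0 + (if xor (decide (h ≤ (z 0).val)) (c (ZMod.cast (z 0) : ZMod h)) then 1 else 0)
          = y 0) ∧ (∀ i : Fin j, move h c (z i.succ) = y i.succ)) := by
    apply Finset.filter_congr
    intro c _
    exact hS c
  have hcount := count_split (ZMod.cast (z 0) : ZMod h)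
    (fun b : Bool => 2 * z 0 + (if xor (decide (h ≤ (z 0).val)) b then 1 else 0) = y 0)
    (fun c : ZMod h → Bool => ∀ i : Fin j, move h c (z i.succ) = y i.succ) hBupd
  have hw := wm_eq (z 0) (y 0) (decide (h ≤ (z 0).val))
  rw [defs_aux_stepProb, defs_aux_stepProb, defs_aux_Wmat, hfilt]
  have htail : (univ.filter fun c : ZMod h → Bool =>
        ∀ i : Fin j, move h c (Fin.tail z i) = Fin.tail y i)
      = univ.filter fun c : ZMod h → Bool => ∀ i : Fin j, move h c (z i.succ) = y i.succ := rfl
  rw [htail, hcount, ← hw]
  ring

end Vale.Agent.Lib.P162.H23
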